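import Vale.Agent.P254.E.Grid.Part0
import Vale.Agent.P254.E.Grid.Part1
import Vale.Agent.P254.E.Grid.Part2
import Vale.Agent.P254.E.Grid.Part3
import Vale.Agent.P254.E.Grid.Part4
import Vale.Agent.P254.E.Grid.Part5
import Vale.Agent.P254.E.Grid.Part6
import Vale.Agent.P254.E.Grid.Part7

/-! The generated grid assembled. -/

namespace Vale.P254.E

/-- All certified points, descending in `a`. -/
def gridAll : List Pt := Grid0.pts ++ Grid1.pts ++ Grid2.pts ++ Grid3.pts ++ Grid4.pts ++ Grid5.pts ++ Grid6.pts ++ Grid7.pts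

/-- The top point used. -/
def gridTop : Pt := ⟨(1738013/1000000), (1252329/10000000), (-4026237/10000000)⟩

/-- The points below the top. -/
def gridPts : List Pt :=
  Grid1.pts ++ Grid2.pts ++ Grid3.pts ++ Grid4.pts ++ Grid5.pts ++ Grid6.pts ++ Grid7.pts

/-- The last point. -/
def gridBot : Pt := ⟨(1/250), (1611283/2500000), (-381263/5000000)⟩

/-- The bound for `cR` below the last point. -/
def gridEnd : ℚ := (-252397/5000000)

theorem gridData : GridData gridTop gridPts gridBot gridEnd := by
  have g0 : Grid0.start.Good := good_row8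
  obtain ⟨g1, p0⟩ := Grid0.good g0
  replace g1 : Grid1.start.Good := g1
  obtain ⟨g2, p1⟩ := Grid1.good g1
  replace g2 : Grid2.start.Good := g2
  obtain ⟨g3, p2⟩ := Grid2.good g2
  replace g3 : Grid3.start.Good := g3
  obtain ⟨g4, p3⟩ := Grid3.good g3
  replace g4 : Grid4.start.Good := g4
  obtain ⟨g5, p4⟩ := Grid4.good g4
  replace g5 : Grid5.start.Good := g5
  obtain ⟨g6, p5⟩ := Grid5.good g5
  replace g6 : Grid6.start.Good := g6
  obtain ⟨g7, p6⟩ := Grid6.good g6
  replace g7 : Grid7.start.Good := g7
  obtain ⟨g8, p7⟩ := Grid7.good g7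

  have all : ∀ x ∈ gridAll, x.Good := by
    intro x hx
    simp only [gridAll, List.mem_append, or_assoc] at hx
    rcases hx with h | h | h | h | h | h | h | h
    · exact p0 x h
    · exact p1 x h
    · exact p2 x h
    · exact p3 x h
    · exact p4 x h
    · exact p5 x h
    · exact p6 x h
    · exact p7 x h
  have hb : (gridBot.a : ℝ) = (Grid7.finish.a : ℝ) := by rfl
  have ht : gridTop ∈ Grid0.pts16 := List.mem_of_getElem? (i := 16) rfl
  have hl : gridBot ∈ Grid7.pts16 := List.mem_of_getElem? (i := 13) rfl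
  refine ⟨all _ ?_, fun x hx => all x ?_, all _ ?_, ?_, fun a ha hle => ?_⟩
  · simp only [gridAll, Grid0.pts, List.mem_append]; tauto
  · simp only [gridPts, gridAll, List.mem_append] at hx ⊢; tauto
  · simp only [gridAll, Grid7.pts, List.mem_append]; tauto
  · norm_num [gridBot]
  · rw [hb] at hle
    refine (cR_le_rEnd g8 (by decide +kernel) (by decide +kernel) ha hle).trans ?_
    exact_mod_cast (show Grid7.finish.rEnd ≤ gridEnd by decide +kernel)

end Vale.P254.E
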